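import Vale.Agent.P004X.P004G.H503.Fin3
import Vale.Agent.P004X.P004E.H628.Cls

/-!
# P004E: the coefficient system of `y² = x³ - A x` and the class of twists with root number `-1`
-/

open Real MeasureTheory Set

namespace P004G

variable [Crv]

/-- **Class and sign**: for the squarefree `m ≡ 1 mod N` of sign `σ` (`m ≠ 1`) the theta series has
the functional equation with root number `-1` and conductor parameter exactly `q₀ m²`, and the
twist of `y² = x³ + a x + b` by the fundamental discriminant `m` has odd analytic rank `r`, with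
`Van m r`. -/
def StCls (a b : ℤ) : Prop :=
  ∃ (σ : ℤ) (N : ℕ) (q₀ : ℝ), (σ = 1 ∨ σ = -1) ∧ 0 < N ∧ 8 ∣ N ∧ bd ∣ N ∧ 0 < q₀ ∧
    ∀ m : ℤ, Squarefree m → m.sign = σ → m % (N : ℤ) = 1 → m ≠ 1 → P004.IsFund m ∧
      (∀ u : ℝ, 0 < u → theta m u =
        -1 / (q₀ * (m : ℝ) ^ 2 * u ^ 2) * theta m (1 / (q₀ * (m : ℝ) ^ 2 * u))) ∧
      Odd (aRk a b m) ∧ Van m (aRk a b m)

end P004G

namespace P004
namespace QN

open P004G (cop RQ TH FEq LD GoodAt TrivAt CoefQ trQ Crv StTF aRk IsLT IsL Van StCls)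
open P004G.ML
open scoped NumberTheorySymbols

variable {A : ℤ}

lemma AQ_ncop (hA : A ≠ 0) {n : ℕ} (hn : ¬ n.Coprime (2 * RQ A)) : AQ A n = 0 := by
  have hLD := (coefQ hA).ld
  rcases Nat.eq_zero_or_pos n with rfl | hn0
  · exact hLD.zero
  obtain ⟨l, hl, hl1, hl2⟩ := Nat.Prime.not_coprime_iff_dvd.1 hn
  obtain ⟨k, n', hn', rfl⟩ := Nat.exists_eq_pow_mul_and_not_dvd hn0.ne' l hl.ne_one
  have hk : k ≠ 0 := by
    rintro rfl
    rw [pow_zero, one_mul] at hl1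
    exact hn' hl1
  obtain ⟨k, rfl⟩ := Nat.exists_eq_succ_of_ne_zero hk
  have hc : (l ^ (k + 1)).Coprime n' := ((Nat.Prime.coprime_iff_not_dvd hl).2 hn').pow_left _
  rw [Nat.succ_eq_add_one, hLD.mul _ _ hc]
  have h0 : AQ A (l ^ (k + 1)) = 0 := by
    by_cases h2 : l = 2
    · rw [h2]; exact AQ_two A k
    · have hlR : l ∣ RQ A := by
        rcases (Nat.Prime.dvd_mul hl).1 hl2 with h | h
        · exact absurd ((Nat.prime_dvd_prime_iff_eq hl Nat.prime_two).1 h) h2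
        · exact h
      rw [RQ_eq] at hlR
      obtain ⟨q, hq, hlq⟩ := (hl.prime.dvd_finsetProd_iff _).1 hlR
      obtain ⟨hqp, hq2, hq4⟩ := mem_SQ hq
      have hlq' : l = q := (Nat.prime_dvd_prime_iff_eq hl hqp).1 hlq
      subst hlq'
      exact AQ_bad A hl h2 hq4 k
  rw [h0, zero_mul]

/-- a prime not dividing `2 RQ A` -/
lemma good_val (hA : A ≠ 0) {p : ℕ} (hp : p.Prime) (h : ¬ p ∣ 2 * RQ A) :
    p ≠ 2 ∧ 4 ∣ padicValInt p A := by
  have h2 : p ≠ 2 := by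
    rintro rfl
    exact h (Dvd.intro _ rfl)
  refine ⟨h2, ?_⟩
  by_contra h4
  apply h
  apply Dvd.dvd.mul_left
  rw [RQ_eq]
  apply Finset.dvd_prod_of_mem (fun q : ℕ => q)
  unfold SQ
  rw [Finset.mem_filter, Nat.mem_primeFactors]
  refine ⟨⟨hp, ?_, Int.natAbs_ne_zero.2 hA⟩, h2, h4⟩
  by_contra h1
  apply h4
  rw [padicValInt.eq_zero_of_not_dvd (fun h2 => h1 (Int.natCast_dvd.1 h2))]
  exact dvd_zero _

/-- the coefficient system of `y² = x³ - A x` -/
@[reducible] noncomputable def crvQ (hA : A ≠ 0) : Crv where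
  bd := 2 * RQ A
  bd_ne := Nat.mul_ne_zero (by norm_num) (RQ_ne_zero A)
  two_dvd := ⟨_, rfl⟩
  c := AQ A
  c_one := AQ_one A
  c_bad _ hn := AQ_ncop hA hn
  c_mul m n h := AQ_mul A h
  c_hecke p k hp hb := by
    obtain ⟨h2, h4⟩ := good_val hA hp hb
    exact ((coefQ hA).good p hp h2 h4).1 k
  c_bound n := P004G.pfLbound _ (coefQ hA).ld n

/-- the quadratic twist of the trace -/
lemma trQ_twist {p : ℕ} [hp : Fact p.Prime] (hp2 : p ≠ 2) {c m : ℤ} (hm : ¬ (p : ℤ) ∣ m) :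
    trQ (c * m ^ 2) p = trQ c p * J(m | p) := by
  have h2 := two_ne_of_odd hp2
  rw [trQ_eq h2, trQ_eq h2, ← jacobiSym.legendreSym.to_jacobiSym]
  have hm0 : (m : ZMod p) ≠ 0 := by
    rwa [Ne, ZMod.intCast_zmod_eq_zero_iff_dvd]
  rw [← Equiv.sum_comp (Equiv.mulLeft₀ (m : ZMod p) hm0)]
  have h3 : ∀ x : ZMod p, quadraticChar (ZMod p)
      ((Equiv.mulLeft₀ (m : ZMod p) hm0 x) ^ 3 - ((c * m ^ 2 : ℤ) : ZMod p) *
        (Equiv.mulLeft₀ (m : ZMod p) hm0 x)) =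
      quadraticChar (ZMod p) (x ^ 3 - (c : ZMod p) * x) * legendreSym p m := by
    intro x
    have e : (Equiv.mulLeft₀ (m : ZMod p) hm0 x) ^ 3 - ((c * m ^ 2 : ℤ) : ZMod p) *
        (Equiv.mulLeft₀ (m : ZMod p) hm0 x) =
        (x ^ 3 - (c : ZMod p) * x) * ((m : ZMod p) ^ 2 * (m : ZMod p)) := by
      rw [Equiv.mulLeft₀_apply]
      push_cast
      ring
    rw [e, map_mul, map_mul, map_pow, quadraticChar_sq_one hm0, one_mul]
    rfl
  rw [Finset.sum_congr rfl (fun x _ => h3 x), ← Finset.sum_mul]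
  ring

lemma cop_sq (hA : A ≠ 0) {m : ℤ} (hm0 : m ≠ 0) {p : ℕ} [hp : Fact p.Prime]
    (hm : ¬ (p : ℤ) ∣ m) : padicValInt p (A * m ^ 2) = padicValInt p A ∧
      cop (A * m ^ 2) p = cop A p * m ^ 2 := by
  have hv : padicValInt p (A * m ^ 2) = padicValInt p A := by
    rw [padicValInt.mul hA (pow_ne_zero 2 hm0), pow_two, padicValInt.mul hm0 hm0,
      padicValInt.eq_zero_of_not_dvd hm, add_zero, add_zero]
  refine ⟨hv, ?_⟩
  have h0 : (p : ℤ) ^ padicValInt p A ≠ 0 := by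
    have := hp.out.pos
    positivity
  unfold cop
  rw [hv]
  obtain ⟨c, hc⟩ : ∃ c, A = (p : ℤ) ^ padicValInt p A * c := ⟨_, (cop_mul A p).symm⟩
  set v := padicValInt p A
  rw [hc]
  have e1 : (p : ℤ) ^ v * c * m ^ 2 = (p : ℤ) ^ v * (c * m ^ 2) := by ring
  rw [e1, Int.mul_ediv_cancel_left _ h0, Int.mul_ediv_cancel_left _ h0]

lemma padic_sqf {m : ℤ} (hm : Squarefree m) {p : ℕ} (hp : p.Prime) (h : (p : ℤ) ∣ m) :
    padicValInt p m = 1 := by
  have : Fact p.Prime := ⟨hp⟩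
  have hmn := Int.squarefree_natAbs.2 hm
  have h6 : padicValInt p m = m.natAbs.factorization p := by
    rw [Nat.factorization_def _ hp]; rfl
  have h7 := (Nat.squarefree_iff_factorization_le_one (Int.natAbs_ne_zero.2 hm.ne_zero)).1 hmn p
  have h8 : 0 < m.natAbs.factorization p :=
    hp.factorization_pos_of_dvd (Int.natAbs_ne_zero.2 hm.ne_zero) (Int.natCast_dvd.1 h)
  omega

/-- the coefficients of all twists -/
theorem AQ_twist_all (hA : A ≠ 0) {m : ℤ} (hm : Squarefree m) :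
    ∀ n : ℕ, n.Coprime (2 * RQ A) → AQ (A * m ^ 2) n = AQ A n * J(m | n) := by
  have hm0 : m ≠ 0 := hm.ne_zero
  have hB : A * m ^ 2 ≠ 0 := mul_ne_zero hA (pow_ne_zero 2 hm0)
  have key : ∀ p k : ℕ, p.Prime → ¬ p ∣ 2 * RQ A →
      AQ (A * m ^ 2) (p ^ k) = AQ A (p ^ k) * J(m | p ^ k) := by
    intro p k hp hb
    have hpf : Fact p.Prime := ⟨hp⟩
    obtain ⟨h2, h4⟩ := good_val hA hp hb
    by_cases hpm : (p : ℤ) ∣ m
    · rcases Nat.eq_zero_or_pos k with rfl | hk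
      · simp [AQ_one]
      obtain ⟨k, rfl⟩ := Nat.exists_eq_succ_of_ne_zero hk.ne'
      have hv : ¬ 4 ∣ padicValInt p (A * m ^ 2) := by
        rw [padicValInt.mul hA (pow_ne_zero 2 hm0), pow_two, padicValInt.mul hm0 hm0,
          padic_sqf hm hp hpm]
        omega
      rw [Nat.succ_eq_add_one, AQ_bad _ hp h2 hv]
      have hJ : J(m | p) = 0 := by
        rw [jacobiSym.eq_zero_iff_not_coprime]
        intro h
        have h5 : (p : ℤ) ∣ (Int.gcd m p : ℤ) := Int.dvd_coe_gcd hpm dvd_rfl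
        rw [h] at h5
        exact hp.one_lt.ne' (by exact_mod_cast Int.eq_one_of_dvd_one (by positivity) h5)
      rw [jacobiSym.pow_right, hJ, zero_pow (Nat.succ_ne_zero k), mul_zero]
    · obtain ⟨hv, hc⟩ := cop_sq hA hm0 hpm
      have hg := (coefQ hA).good p hp h2 h4
      have hg' := (coefQ hB).good p hp h2 (by rw [hv]; exact h4)
      have h1 : AQ (A * m ^ 2) p = AQ A p * J(m | p) := by
        rw [hg'.2, hg.2, hc]
        exact trQ_twist h2 hpm
      have hJ2 : J(m | p) ^ 2 = 1 := by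
        apply jacobiSym.sq_one
        rw [Int.gcd_comm, ← Int.isCoprime_iff_gcd_eq_one]
        exact (Prime.coprime_iff_not_dvd (Nat.prime_iff_prime_int.1 hp)).2 hpm
      induction k using Nat.strong_induction_on with
      | _ k ih =>
        match k, ih with
        | 0, _ => simp [AQ_one]
        | 1, _ => simpa using h1
        | k + 2, ih =>
          rw [hg'.1 k, hg.1 k, ih (k + 1) (by omega), ih k (by omega), h1]
          rw [jacobiSym.pow_right, jacobiSym.pow_right, jacobiSym.pow_right]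
          have e : J(m | p) ^ (k + 2) = J(m | p) ^ k * J(m | p) ^ 2 := by ring
          have e' : J(m | p) * J(m | p) ^ (k + 1) = J(m | p) ^ k * J(m | p) ^ 2 := by ring
          calc AQ A p * J(m | p) * (AQ A (p ^ (k + 1)) * J(m | p) ^ (k + 1)) -
                (p : ℤ) * (AQ A (p ^ k) * J(m | p) ^ k)
              = AQ A p * AQ A (p ^ (k + 1)) * (J(m | p) * J(m | p) ^ (k + 1)) -
                (p : ℤ) * (AQ A (p ^ k)) * J(m | p) ^ k := by ring
            _ = (AQ A p * AQ A (p ^ (k + 1)) - p * AQ A (p ^ k)) * J(m | p) ^ (k + 2) := by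
                rw [e', e, hJ2]; ring
  intro n
  induction n using Nat.recOnPosPrimePosCoprime with
  | prime_pow p k hp hk =>
    intro hn
    apply key p k hp
    intro h
    have h5 := Nat.eq_one_of_dvd_coprimes hn (dvd_pow_self p hk.ne') h
    exact hp.one_lt.ne' h5
  | zero =>
    intro hn
    rw [Nat.coprime_zero_left] at hn
    omega
  | one => intro _; simp [AQ_one]
  | coprime a b ha hb hab iha ihb =>
    intro hn
    obtain ⟨h1, h2⟩ := Nat.coprime_mul_iff_left.1 hn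
    have ha0 : a ≠ 0 := by omega
    have hb0 : b ≠ 0 := by omega
    have : NeZero a := ⟨ha0⟩
    have : NeZero b := ⟨hb0⟩
    rw [AQ_mul _ hab, AQ_mul _ hab, iha h1, ihb h2, jacobiSym.mul_right]
    ring

open P004G (Dm abs_Dm fund1_Dm) in
theorem tfQ (hA : A ≠ 0) : @StTF (crvQ hA) := by
  let I : Crv := crvQ hA
  have hA1 : (1 : ℝ) ≤ |(A : ℝ)| := by
    have : 1 ≤ |A| := Int.one_le_abs hA
    exact_mod_cast this
  have hAn : ((A.natAbs : ℕ) : ℝ) = |(A : ℝ)| := by rw [Nat.cast_natAbs, Int.cast_abs]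
  refine ⟨8 * A.natAbs, by have := Int.natAbs_pos.2 hA; omega, fun m hm => ?_⟩
  have hm0 : m ≠ 0 := hm.ne_zero
  have hB : A * m ^ 2 ≠ 0 := mul_ne_zero hA (pow_ne_zero 2 hm0)
  obtain ⟨q, κ, hfe, h1, h2⟩ := feq (A * m ^ 2)
  refine ⟨AQ (A * m ^ 2), q, κ, (coefQ hB).ld, hfe, fun n hn => AQ_twist_all hA hm n hn, ?_, ?_⟩
  · have h3 : |(m : ℝ)| ≤ 8 * |(A : ℝ)| * (RQ (A * m ^ 2) : ℝ) := by
      have h4 := le_RQ hA (fund1_Dm hm)
      have h5 : RQ (A * Dm m ^ 2) = RQ (A * m ^ 2) := by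
        by_cases h6 : m % 4 = 1
        · unfold Dm; rw [if_pos h6]
        · unfold Dm
          rw [if_neg h6]
          have : A * (4 * m) ^ 2 = 16 * (A * m ^ 2) := by ring
          rw [this, RQ_eq, RQ_eq, SQ_sixteen hB]
      rw [h5] at h4
      exact (abs_Dm m).1.trans h4
    push_cast
    rw [hAn, div_le_iff₀ (by positivity)]
    calc |(m : ℝ)| ≤ 8 * |(A : ℝ)| * (RQ (A * m ^ 2) : ℝ) := h3
      _ ≤ 8 * |(A : ℝ)| * √q := by gcongr
      _ = √q * (8 * |(A : ℝ)|) := by ring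
  · push_cast
    rw [hAn]
    calc √q ≤ 8 * (RQ (A * m ^ 2) : ℝ) := h2
      _ ≤ 8 * (|(A : ℝ)| * |(m : ℝ)|) := by gcongr; exact RQ_le hA hm0
      _ = 8 * |(A : ℝ)| * |(m : ℝ)| := by ring

lemma theta_crvQ (hA : A ≠ 0) {m : ℤ} (h : ∀ n, AQ (A * m ^ 2) n = AQ A n * J(m | n)) (u : ℝ) :
    @P004G.theta (crvQ hA) m u = TH (AQ (A * m ^ 2)) u := by
  unfold P004G.theta TH
  congr 1
  apply tsum_congr
  intro n
  rw [h n]
  unfold P004.chi
  push_cast
  rfl

/-- **Class and sign** for `y² = x³ - A x`. -/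
theorem clsQ (hA : A ≠ 0) : @StCls (crvQ hA) (-A) 0 := by
  let I : Crv := crvQ hA
  obtain ⟨σ, N, q₀, hσ, hN, h8, hR, hq, h⟩ := cls hA
  refine ⟨σ, N, q₀, hσ, hN, h8, hR, hq, fun m hm hs h1 hm1 => ?_⟩
  obtain ⟨hfe, hco⟩ := h m hm hs h1
  have hm0 : m ≠ 0 := hm.ne_zero
  have hB : A * m ^ 2 ≠ 0 := mul_ne_zero hA (pow_ne_zero 2 hm0)
  have h4 : m % 4 = 1 := by
    have h6 : (N : ℤ) ∣ m - 1 := Int.dvd_self_sub_of_emod_eq h1
    have h7 : (8 : ℤ) ∣ m - 1 := Dvd.dvd.trans (by exact_mod_cast h8) h6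
    omega
  have hfund : IsFund m := ⟨hm1, Or.inl ⟨h4, hm⟩⟩
  have hid : ∀ n, AQ (A * m ^ 2) n = LA (-A * m ^ 2) (0 * m ^ 3) n := by
    intro n
    rw [P004G.ML.MQ.pfMLQ _ hB _ (coefQ hB) n, neg_mul, zero_mul]
  have hLD := (coefQ hB).ld
  have hpar := rank_parity P004G.pfLent P004G.pfLparity hid hLD hfe
  have hodd : Odd (aRk (-A) 0 m) := by
    rw [← Nat.not_even_iff_odd, ← hpar]
    norm_num
  obtain ⟨L, hL, hU⟩ := P004G.pfLent _ _ _ hLD hfe
  have hA' : AQ (A * m ^ 2) = LA (-A * m ^ 2) (0 * m ^ 3) := funext hid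
  have hrk : aRk (-A) 0 m = analyticOrderNatAt L 1 := by
    rw [hA'] at hL hU hLD
    have hLT : IsLT (-A) 0 m L := (P004G.isLT_iff hLD).2 hL
    have hUT : ∀ L', IsLT (-A) 0 m L' → L' = L := fun L' h' => hU L' ((P004G.isLT_iff hLD).1 h')
    unfold aRk
    have hex : ∃ L, IsLT (-A) 0 m L := ⟨L, hLT⟩
    rw [dif_pos hex, hUT _ hex.choose_spec]
  refine ⟨hfund, fun u hu => ?_, hodd, ?_⟩
  · have h5 := hfe.2.2 u hu
    rw [theta_crvQ hA hco, theta_crvQ hA hco]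
    exact h5
  · rw [hrk]
    exact P004G.pfVan1 m _ _ _ L hLD hfe hL (fun n _ => hco n)

end QN
end P004
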